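import Vale.Agent.P281.H638.HK.DetF

/-!
# P281, T-HK, block W4 (helper638): the standard symplectic form
-/

open Equiv

noncomputable section

namespace Vale.Agent.P281.H638.HK

variable {d k : ℕ}

/-- The values of `dz` (`b = 0`) and of `conj dz` (`b = 1`) on `1`, `i`. -/
def yv (b c : Fin 2) : ℂ := if c = 0 then 1 else if b = 0 then Complex.I else -Complex.I

/-- The factor `dz_{(l, c)}` or its conjugate (`i` in the second half). -/
def fac (e : Fin k × Fin 2 ≃ Fin d) (c : Fin 2) (i : Fin d) (l : Fin k) (p : Fin d × Fin 2) : ℂ :=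
  if p.1 = e (l, c) then yv (e.symm i).2 p.2 else 0

/-- The matrix of the standard order. -/
def M0 (e : Fin k × Fin 2 ≃ Fin d) : Matrix (Fin d × Fin 2) (Fin d × Fin 2) ℂ :=
  Matrix.of fun x p => if p.1 = e ((e.symm x.1).1, x.2) then yv (e.symm x.1).2 p.2 else 0

/-- One block. -/
def mb : Matrix (Fin 2 × Fin 2) (Fin 2 × Fin 2) ℂ :=
  Matrix.of fun x p => if p.1 = x.2 then yv x.1 p.2 else 0

theorem mb_det : mb.det = 4 := by
  have e1 : (finProdFinEquiv : Fin 2 × Fin 2 ≃ Fin 4).symm 0 = (0, 0) := by decide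
  have e2 : (finProdFinEquiv : Fin 2 × Fin 2 ≃ Fin 4).symm 1 = (0, 1) := by decide
  have e3 : (finProdFinEquiv : Fin 2 × Fin 2 ≃ Fin 4).symm 2 = (1, 0) := by decide
  have e4 : (finProdFinEquiv : Fin 2 × Fin 2 ≃ Fin 4).symm 3 = (1, 1) := by decide
  rw [← Matrix.det_submatrix_equiv_self (finProdFinEquiv : Fin 2 × Fin 2 ≃ Fin 4).symm mb]
  have h : mb.submatrix (finProdFinEquiv : Fin 2 × Fin 2 ≃ Fin 4).symm
      (finProdFinEquiv : Fin 2 × Fin 2 ≃ Fin 4).symm =
      !![1, Complex.I, 0, 0; 0, 0, 1, Complex.I; 1, -Complex.I, 0, 0; 0, 0, 1, -Complex.I] := by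
    ext i j
    fin_cases i <;> fin_cases j <;>
      simp [Matrix.submatrix_apply, mb, yv, e1, e2, e3, e4]
  rw [h, Matrix.det_succ_row_zero]
  simp [Fin.sum_univ_succ, Matrix.det_fin_three, Matrix.submatrix_apply, Fin.succAbove]
  ring_nf
  simp [Complex.I_sq]
  norm_num

/-- The reindexing. -/
def EE (e : Fin k × Fin 2 ≃ Fin d) : (Fin 2 × Fin 2) × Fin k ≃ Fin d × Fin 2 where
  toFun x := (e (x.2, x.1.1), x.1.2)
  invFun p := (((e.symm p.1).2, p.2), (e.symm p.1).1)
  left_inv x := by simp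
  right_inv p := by simp

theorem M0_det (e : Fin k × Fin 2 ≃ Fin d) : (M0 e).det = 4 ^ k := by
  rw [← Matrix.det_submatrix_equiv_self (EE e) (M0 e)]
  have h : (M0 e).submatrix (EE e) (EE e) = Matrix.blockDiagonal fun _ : Fin k => mb := by
    ext ⟨⟨b, c⟩, l⟩ ⟨⟨b', c'⟩, l'⟩
    rw [Matrix.blockDiagonal_apply]
    simp only [Matrix.submatrix_apply, EE, Equiv.coe_fn_mk, M0, Matrix.of_apply,
      Equiv.symm_apply_apply, EmbeddingLike.apply_eq_iff_eq, Prod.mk.injEq, mb]
    by_cases h1 : l = l'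
    · subst h1
      simp
    · have h2 : ¬ l' = l := fun h => h1 h.symm
      simp [h1, h2]
  rw [h, Matrix.det_blockDiagonal]
  simp [mb_det]

theorem gam_det (e : Fin k × Fin 2 ≃ Fin d) (f : Fin d → Fin k) :
    (gam (fun i => fac e 0 i (f i)) fun i => fac e 1 i (f i)).det =
      if Function.Injective (fun i => e (f i, (e.symm i).2)) then 4 ^ k else 0 := by
  have h0 : (gam (fun i => fac e 0 i (f i)) fun i => fac e 1 i (f i)) =
      (M0 e).submatrix (fun x => (e (f x.1, (e.symm x.1).2), x.2)) id := by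
    ext ⟨i, c⟩ ⟨j, c'⟩
    simp only [Matrix.submatrix_apply, M0, gam, Matrix.of_apply, fac, Equiv.symm_apply_apply, id]
    fin_cases c <;> simp
  rw [h0]
  split_ifs with hf
  · have hb : Function.Bijective (fun i => e (f i, (e.symm i).2)) := by
      rw [Fintype.bijective_iff_injective_and_card]
      exact ⟨hf, rfl⟩
    set σ : Perm (Fin d) := Equiv.ofBijective _ hb with hσ
    have h1 : (fun x : Fin d × Fin 2 => ((e (f x.1, (e.symm x.1).2), x.2) : Fin d × Fin 2)) =
        (Equiv.prodCongrLeft fun _ : Fin 2 => σ) := by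
      funext x
      rfl
    rw [h1, Matrix.det_permute, M0_det, Perm.sign_prodCongrLeft]
    rcases Int.units_eq_one_or (Perm.sign σ) with e1 | e1 <;> simp [e1]
  · rw [Function.Injective] at hf
    push Not at hf
    obtain ⟨i, j, hij, hne⟩ := hf
    refine Matrix.det_zero_of_row_eq (i := (i, 0)) (j := (j, 0))
      (fun h => hne (congrArg Prod.fst h)) ?_
    funext p
    simp only [Matrix.submatrix_apply]
    rw [hij]

/-- The sum of all the terms. -/
theorem sum_det (e : Fin k × Fin 2 ≃ Fin d) : ∃ N : ℕ, 0 < N ∧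
    ∑ f : Fin d → Fin k, (gam (fun i => fac e 0 i (f i)) fun i => fac e 1 i (f i)).det =
      (N : ℂ) * 4 ^ k := by
  classical
  refine ⟨(Finset.univ.filter fun f : Fin d → Fin k =>
    Function.Injective (fun i => e (f i, (e.symm i).2))).card, ?_, ?_⟩
  · refine Finset.card_pos.mpr ⟨fun i => (e.symm i).1, ?_⟩
    rw [Finset.mem_filter]
    refine ⟨Finset.mem_univ _, ?_⟩
    intro i j hij
    simpa using hij
  · simp only [gam_det]
    rw [← Finset.sum_filter, Finset.sum_const, nsmul_eq_mul]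

end Vale.Agent.P281.H638.HK
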