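import Vale.Agent.P281.H83.HK.Defs
import Vale.Agent.P281.H747.HK.Alg
import Vale.Agent.P182.H163.Pfaff
import Vale.Agent.P281.H638.HK.DetS

/-!
# P281, T-HK, block W4 (helper638): the volume form of a holomorphic 2-form
-/

open Set Filter Metric MeasureTheory
open scoped Topology ContDiff ComplexConjugate ComplexOrder

noncomputable section

namespace Vale.Agent.P281.H638.HK

open Vale.Agent.P281.H64.TK Vale.Agent.P281.H64.TK.TS Vale.Agent.P281.H83.HK
open Vale.Agent.P281.H64 (Cm)
open Vale.Agent.P281.H747.HK (vl vl_tf vl_cj ui LJ LJ_det tf_pull W_wv)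
open Equiv

variable {d k : ℕ}

/-- The forms `σ, ..., σ, conj σ, ..., conj σ`. -/
def sg (s : Matrix (Fin d) (Fin d) ℂ) (i : Fin d) : L2 d :=
  if 2 * i.val < d then tf s else cj (tf s)

theorem W_pull_sg (J s : Matrix (Fin d) (Fin d) ℂ) :
    W (sg (J.transpose * s * J)) = W (sg s) * ((‖J.det‖ ^ 2 : ℝ) : ℂ) := by
  rw [W_wv, W_wv, H864.HK.W_pull (LJ J) (a' := sg s) (fun i u v => ?_), LJ_det]
  unfold sg
  split_ifs
  · exact tf_pull J s u v
  · show conj (tf (J.transpose * s * J) u v) = conj (tf s (LJ J u) (LJ J v))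
    rw [tf_pull]

/-- The singular forms. -/
theorem W_sing {s : Matrix (Fin d) (Fin d) ℂ} (hs : s.transpose = -s) (h0 : s.det = 0) :
    W (sg s) = 0 := by
  obtain ⟨v, hv0, hv⟩ := Matrix.exists_mulVec_eq_zero_iff.mpr h0
  obtain ⟨m, hm⟩ : ∃ m, v m ≠ 0 := by
    by_contra h
    push Not at h
    exact hv0 (funext h)
  set J : Matrix (Fin d) (Fin d) ℂ := (1 : Matrix (Fin d) (Fin d) ℂ).updateCol m v with hJ
  have hdet : J.det = v m := by
    rw [hJ, ← Matrix.cramer_apply, Matrix.cramer_one]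
    rfl
  have hcol : ∀ j, (J.transpose * s * J) j m = 0 := by
    intro j
    have h1 : (J.transpose * s * J) j m = (J.transpose.mulVec (s.mulVec v)) j := by
      rw [Matrix.mul_apply_eq_vecMul, Matrix.mulVec_mulVec]
      simp only [Matrix.vecMul, Matrix.mulVec, dotProduct]
      refine Finset.sum_congr rfl fun l _ => ?_
      rw [hJ, Matrix.updateCol_self]
    rw [h1, hv, Matrix.mulVec_zero]
    rfl
  have hskew : (J.transpose * s * J).transpose = -(J.transpose * s * J) := by
    rw [Matrix.transpose_mul, Matrix.transpose_mul, Matrix.transpose_transpose, hs]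
    rw [Matrix.neg_mul, Matrix.mul_neg, Matrix.mul_assoc]
  have hrow : ∀ j, (J.transpose * s * J) m j = 0 := by
    intro j
    have h1 := congrFun (congrFun hskew j) m
    rw [Matrix.transpose_apply, Matrix.neg_apply, hcol, neg_zero] at h1
    exact h1
  have hW : W (sg (J.transpose * s * J)) = 0 := by
    unfold W
    rw [Finset.sum_eq_zero, mul_zero]
    intro π _
    obtain ⟨⟨i, c⟩, hx⟩ := π.surjective ((m, 0) : Fin d × Fin 2)
    have h2 : sg (J.transpose * s * J) i (rb (π (i, 0))) (rb (π (i, 1))) = 0 := by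
      have h3 : tf (J.transpose * s * J) (rb (π (i, 0))) (rb (π (i, 1))) = 0 := by
        have h4 := vl_tf (J.transpose * s * J) (π (i, 0)) (π (i, 1))
        rw [vl] at h4
        rw [h4]
        fin_cases c
        · have h5 : (π (i, 0)).1 = m := congrArg Prod.fst hx
          rw [h5, hrow, zero_mul]
        · have h5 : (π (i, 1)).1 = m := congrArg Prod.fst hx
          rw [h5, hcol, zero_mul]
      unfold sg
      split_ifs
      · exact h3
      · show conj (tf (J.transpose * s * J) (rb (π (i, 0))) (rb (π (i, 1)))) = 0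
        rw [h3, map_zero]
    rw [Finset.prod_eq_zero (Finset.mem_univ i) h2, mul_zero]
  rw [W_pull_sg, hdet] at hW
  rcases mul_eq_zero.mp hW with h | h
  · exact h
  · exfalso
    rw [Complex.ofReal_eq_zero] at h
    exact hm (norm_eq_zero.mp (pow_eq_zero_iff (by norm_num : (2 : ℕ) ≠ 0) |>.mp h))

/-- The standard symplectic matrix. -/
def Om (e : Fin k × Fin 2 ≃ Fin d) : Matrix (Fin d) (Fin d) ℂ := Matrix.of fun p q =>
  ∑ l : Fin k, ((if p = e (l, 0) then (1 : ℂ) else 0) * (if q = e (l, 1) then 1 else 0) -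
    (if q = e (l, 0) then 1 else 0) * (if p = e (l, 1) then 1 else 0))

theorem Om_skew (e : Fin k × Fin 2 ≃ Fin d) : (Om e).transpose = -Om e := by
  ext p q
  rw [Matrix.transpose_apply, Matrix.neg_apply, Om, Matrix.of_apply, Matrix.of_apply,
    ← Finset.sum_neg_distrib]
  refine Finset.sum_congr rfl fun l _ => ?_
  ring

theorem W_Om (e : Fin k × Fin 2 ≃ Fin d) (he : ∀ i, 2 * i.val < d ↔ (e.symm i).2 = 0) :
    ∃ N : ℕ, 0 < N ∧ W (sg (Om e)) = (((N : ℝ) * 4 ^ k : ℝ) : ℂ) := by
  obtain ⟨N, hN, hs⟩ := sum_det e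
  refine ⟨N, hN, ?_⟩
  have hv : ∀ (i : Fin d) (p q : Fin d × Fin 2), sg (Om e) i (rb p) (rb q) =
      ∑ l, (fac e 0 i l p * fac e 1 i l q - fac e 0 i l q * fac e 1 i l p) := by
    intro i p q
    have h1 : tf (Om e) (rb p) (rb q) = Om e p.1 q.1 * (ui p.2 * ui q.2) := vl_tf _ p q
    by_cases hi : 2 * i.val < d
    · have h2 : (e.symm i).2 = 0 := (he i).mp hi
      have h3 : ∀ c : Fin 2, yv 0 c = ui c := by
        intro c; unfold yv ui; simp
      rw [sg, if_pos hi, h1, Om, Matrix.of_apply, Finset.sum_mul]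
      refine Finset.sum_congr rfl fun l _ => ?_
      simp only [fac, h2, h3]
      split_ifs <;> ring
    · have h2 : (e.symm i).2 = 1 := by
        have := mt (he i).mpr hi
        omega
      have h3 : ∀ c : Fin 2, yv 1 c = conj (ui c) := by
        intro c; unfold yv ui; fin_cases c <;> simp
      have h4 : conj (Om e p.1 q.1) = Om e p.1 q.1 := by
        rw [Om, Matrix.of_apply, map_sum]
        refine Finset.sum_congr rfl fun l _ => ?_
        split_ifs <;> simp
      rw [sg, if_neg hi]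
      show conj (tf (Om e) (rb p) (rb q)) = _
      rw [h1, map_mul, map_mul, h4, Om, Matrix.of_apply, Finset.sum_mul]
      refine Finset.sum_congr rfl fun l _ => ?_
      simp only [fac, h2, h3]
      split_ifs <;> ring
  have h1 := alt_sum (fun i l p => fac e 0 i l p) (fun i l p => fac e 1 i l p)
    (fun i p q => sg (Om e) i (rb p) (rb q)) hv
  rw [hs] at h1
  unfold W
  rw [h1, ← mul_assoc, inv_mul_cancel₀ (pow_ne_zero _ two_ne_zero), one_mul]
  push_cast
  rfl

/-- The normal form. -/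
theorem exists_P {s : Matrix (Fin d) (Fin d) ℂ} (hs : s.transpose = -s) (h0 : s.det ≠ 0) :
    ∃ k, 2 * k = d ∧ ∀ e : Fin k × Fin 2 ≃ Fin d, ∃ P : Matrix (Fin d) (Fin d) ℂ,
      P.transpose * s * P = Om e := by
  let A : (Fin d → ℂ) →ₗ[ℂ] (Fin d → ℂ) →ₗ[ℂ] ℂ := Matrix.toLinearMap₂' ℂ s
  have hAv : ∀ u v, A u v = u ⬝ᵥ s.mulVec v := by
    intro u v
    simp only [A]
    rw [Matrix.toLinearMap₂'_apply']
  have hA : ∀ u, A u u = 0 := by
    intro u
    have h1 : A u u = -A u u := by
      rw [hAv]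
      nth_rw 1 [dotProduct_comm, ← Matrix.vecMul_transpose, hs, Matrix.vecMul_neg,
        neg_dotProduct, ← Matrix.dotProduct_mulVec]
    linear_combination h1 / 2
  have hnd : ∀ u, (∀ v, A u v = 0) → u = 0 := by
    intro u hu
    by_contra hne
    have h1 : s.transpose.mulVec u = 0 := by
      funext j
      have h2 := hu (Pi.single j 1)
      rw [hAv, Matrix.dotProduct_mulVec, dotProduct_single, mul_one] at h2
      rw [Matrix.mulVec_transpose]
      exact h2
    have h3 : s.transpose.det = 0 := Matrix.exists_mulVec_eq_zero_iff.mp ⟨u, hne, h1⟩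
    rw [Matrix.det_transpose] at h3
    exact h0 h3
  obtain ⟨k, w, hw, hk⟩ := P182.exists_sympl_basis hA hnd
  rw [Module.finrank_fintype_fun_eq_card, Fintype.card_fin] at hk
  refine ⟨k, hk, fun e => ?_⟩
  let e' : Fin d → Fin k × Bool := fun j => ((e.symm j).1, decide ((e.symm j).2 = 1))
  refine ⟨Matrix.of fun i j => w (e' j) i, ?_⟩
  ext j j'
  have h1 : ((Matrix.of fun i j => w (e' j) i).transpose * s * Matrix.of fun i j => w (e' j) i) j j'
      = A (w (e' j)) (w (e' j')) := by
    rw [hAv, Matrix.mul_assoc, Matrix.mul_apply]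
    simp only [dotProduct, Matrix.transpose_apply, Matrix.of_apply, Matrix.mul_apply,
      Matrix.mulVec]
  rw [h1, hw]
  obtain ⟨⟨l, b⟩, rfl⟩ := e.surjective j
  obtain ⟨⟨l', b'⟩, rfl⟩ := e.surjective j'
  simp only [e', Equiv.symm_apply_apply, Om, Matrix.of_apply, P182.sympl,
    EmbeddingLike.apply_eq_iff_eq, Prod.mk.injEq]
  rw [Finset.sum_eq_single l]
  · by_cases hl : l = l'
    · subst hl
      fin_cases b <;> fin_cases b' <;> simp
    · have hl' : ¬ l' = l := fun h => hl h.symm
      simp [hl, hl']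
  · intro m _ hm
    have hm' : ¬ l = m := fun h => hm h.symm
    simp [hm']
  · intro h; exact absurd (Finset.mem_univ _) h

/-- The standard indexing. -/
def stE (k : ℕ) : Fin k × Fin 2 ≃ Fin (2 * k) where
  toFun x := ⟨x.1.val + k * x.2.val, by
    have h1 := x.1.isLt
    have h2 := x.2.isLt
    nlinarith [Nat.mul_le_mul_left k (show x.2.val ≤ 1 by omega)]⟩
  invFun i := if h : i.val < k then (⟨i.val, h⟩, 0) else (⟨i.val - k, by omega⟩, 1)
  left_inv x := by
    rcases x with ⟨l, b⟩
    fin_cases b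
    · simp
    · simp
  right_inv i := by
    by_cases h : i.val < k
    · simp [h]
    · ext
      simp only [h, dite_false]
      show i.val - k + k * 1 = i.val
      omega

theorem stE_spec (k : ℕ) (i : Fin (2 * k)) : 2 * i.val < 2 * k ↔ ((stE k).symm i).2 = 0 := by
  show _ ↔ (if h : i.val < k then ((⟨i.val, h⟩, 0) : Fin k × Fin 2)
    else (⟨i.val - k, by omega⟩, 1)).2 = 0
  by_cases h : i.val < k
  · simp [h]
  · simp [h]

/-- **W4**: the volume form of a holomorphic 2-form (the literal `WDetStmt`, unfolded). -/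
theorem wDet0 (d : ℕ) : ∃ κ : ℝ, 0 < κ ∧ ∀ s : Matrix (Fin d) (Fin d) ℂ, s.transpose = -s →
    W (fun i : Fin d => if 2 * i.val < d then tf s else cj (tf s)) = ((κ * ‖s.det‖ : ℝ) : ℂ) := by
  by_cases hd : ∃ k, 2 * k = d
  · obtain ⟨k, rfl⟩ := hd
    obtain ⟨N, hN, hW⟩ := W_Om (stE k) (stE_spec k)
    have hpos : (0 : ℝ) < (N : ℝ) * 4 ^ k := by positivity
    have hdet : (Om (stE k)).det ≠ 0 := by
      intro h
      have h1 := W_sing (Om_skew (stE k)) h
      rw [hW] at h1
      exact hpos.ne' (Complex.ofReal_eq_zero.mp h1)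
    have hn : 0 < ‖(Om (stE k)).det‖ := norm_pos_iff.mpr hdet
    refine ⟨(N : ℝ) * 4 ^ k / ‖(Om (stE k)).det‖, by positivity, fun s hs => ?_⟩
    show W (sg s) = _
    by_cases h0 : s.det = 0
    · rw [W_sing hs h0, h0, norm_zero, mul_zero]
      simp
    · obtain ⟨k', hk', hP⟩ := exists_P hs h0
      obtain rfl : k' = k := by omega
      obtain ⟨P, hP⟩ := hP (stE k')
      have h1 := W_pull_sg P s
      rw [hP, hW] at h1
      have h2 : (Om (stE k')).det = P.det * s.det * P.det := by
        rw [← hP, Matrix.det_mul, Matrix.det_mul, Matrix.det_transpose]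
      have hPd : P.det ≠ 0 := by
        intro h
        rw [h, mul_zero] at h2
        exact hdet h2
      have h3 : ‖(Om (stE k')).det‖ = ‖P.det‖ ^ 2 * ‖s.det‖ := by
        rw [h2, norm_mul, norm_mul]; ring
      have hPn : ‖P.det‖ ≠ 0 := norm_ne_zero_iff.mpr hPd
      have hsn : ‖s.det‖ ≠ 0 := norm_ne_zero_iff.mpr h0
      have h4 : (((‖P.det‖ ^ 2 : ℝ)) : ℂ) ≠ 0 := by
        rw [Ne, Complex.ofReal_eq_zero]
        positivity
      rw [← mul_left_inj' h4, ← h1, ← Complex.ofReal_mul, h3]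
      congr 1
      field_simp
  · refine ⟨1, one_pos, fun s hs => ?_⟩
    show W (sg s) = _
    have h0 : s.det = 0 := by
      by_contra h0
      obtain ⟨k, hk, -⟩ := exists_P hs h0
      exact hd ⟨k, hk⟩
    rw [W_sing hs h0, h0, norm_zero, mul_zero]
    simp

end Vale.Agent.P281.H638.HK
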