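import Vale.Agent.P281.H83.HK.Spec
import Vale.Agent.P281.H638.HK.WDet

/-!
# P281, T-HK, block W4 (helper638): the literal
-/

namespace Vale.Agent.P281.H638.HK

/-- **W4**. -/
theorem wDet : Vale.Agent.P281.H83.HK.WDetStmt := wDet0

end Vale.Agent.P281.H638.HK
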