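import Mathlib.LinearAlgebra.Matrix.Determinant.Basic
import Mathlib.LinearAlgebra.Matrix.NonsingularInverse
import Mathlib.Data.Complex.Basic
import Mathlib.Data.Complex.BigOperators
import Mathlib.GroupTheory.Perm.Fin
import Mathlib.Data.Matrix.Block
import Mathlib.LinearAlgebra.Matrix.Block
import Mathlib.Tactic

/-!
# P281, T-HK, block W4 (helper638): the density of a product of decomposable 2-forms
-/

open Equiv

noncomputable section

namespace Vale.Agent.P281.H638.HK

variable {d : ℕ}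

/-- The matrix of the factors. -/
def gam (α β : Fin d → Fin d × Fin 2 → ℂ) : Matrix (Fin d × Fin 2) (Fin d × Fin 2) ℂ :=
  Matrix.of fun x y => if x.2 = 0 then α x.1 y else β x.1 y

/-- `α_1 ∧ β_1 ∧ ⋯ ∧ α_d ∧ β_d` is a determinant. -/
theorem alt_dec (α β : Fin d → Fin d × Fin 2 → ℂ) :
    ∑ π : Perm (Fin d × Fin 2), ((Perm.sign π : ℤ) : ℂ) *
      ∏ i, (α i (π (i, 0)) * β i (π (i, 1)) - α i (π (i, 1)) * β i (π (i, 0))) =
      2 ^ d * (gam α β).det := by
  have h0 : ∀ (i : Fin d) (π : Perm (Fin d × Fin 2)),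
      α i (π (i, 0)) * β i (π (i, 1)) - α i (π (i, 1)) * β i (π (i, 0)) =
      ∑ τ : Perm (Fin 2), ((Perm.sign τ : ℤ) : ℂ) * ∏ a : Fin 2, gam α β (i, τ a) (π (i, a)) := by
    intro i π
    have h1 := Matrix.det_apply' (Matrix.of fun a b : Fin 2 => gam α β (i, a) (π (i, b)))
    rw [Matrix.det_fin_two] at h1
    simp only [Matrix.of_apply] at h1
    rw [← h1]
    simp only [gam, Matrix.of_apply, if_true, one_ne_zero, if_false]
  simp only [h0]
  have h2 : ∀ π : Perm (Fin d × Fin 2),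
      ∏ i, ∑ τ : Perm (Fin 2), ((Perm.sign τ : ℤ) : ℂ) * ∏ a : Fin 2, gam α β (i, τ a) (π (i, a)) =
      ∑ g : Fin d → Perm (Fin 2), ∏ i, (((Perm.sign (g i) : ℤ) : ℂ) *
        ∏ a : Fin 2, gam α β (i, g i a) (π (i, a))) := by
    intro π
    rw [Finset.prod_univ_sum, Fintype.piFinset_univ]
  simp only [h2, Finset.mul_sum]
  rw [Finset.sum_comm]
  have h3 : ∀ g : Fin d → Perm (Fin 2), ∑ π : Perm (Fin d × Fin 2), ((Perm.sign π : ℤ) : ℂ) *
      ∏ i, (((Perm.sign (g i) : ℤ) : ℂ) * ∏ a : Fin 2, gam α β (i, g i a) (π (i, a))) =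
      (gam α β).det := by
    intro g
    have h4 : ∀ π : Perm (Fin d × Fin 2), ∏ i, (((Perm.sign (g i) : ℤ) : ℂ) *
        ∏ a : Fin 2, gam α β (i, g i a) (π (i, a))) =
        ((Perm.sign (Equiv.prodCongrRight g) : ℤ) : ℂ) *
          ∏ x, ((gam α β).submatrix (Equiv.prodCongrRight g) id).transpose (π x) x := by
      intro π
      rw [Finset.prod_mul_distrib, Perm.sign_prodCongrRight, Fintype.prod_prod_type]
      congr 1
      push_cast
      rfl
    simp only [h4]
    have h5 : ∀ π : Perm (Fin d × Fin 2), ((Perm.sign π : ℤ) : ℂ) *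
        (((Perm.sign (Equiv.prodCongrRight g) : ℤ) : ℂ) *
          ∏ x, ((gam α β).submatrix (Equiv.prodCongrRight g) id).transpose (π x) x) =
        ((Perm.sign (Equiv.prodCongrRight g) : ℤ) : ℂ) * (((Perm.sign π : ℤ) : ℂ) *
          ∏ x, ((gam α β).submatrix (Equiv.prodCongrRight g) id).transpose (π x) x) := by
      intro π; ring
    simp only [h5]
    rw [← Finset.mul_sum, ← Matrix.det_apply', Matrix.det_transpose, Matrix.det_permute,
      ← mul_assoc]
    rcases Int.units_eq_one_or (Perm.sign (Equiv.prodCongrRight g)) with e | e <;> rw [e] <;> simp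
  simp only [h3]
  rw [Finset.sum_const, Finset.card_univ, Fintype.card_fun, Fintype.card_perm, Fintype.card_fin,
    Fintype.card_fin, nsmul_eq_mul]
  norm_num

/-- The same for sums of decomposable forms. -/
theorem alt_sum {k : ℕ} (α β : Fin d → Fin k → Fin d × Fin 2 → ℂ)
    (v : Fin d → Fin d × Fin 2 → Fin d × Fin 2 → ℂ)
    (hv : ∀ i p q, v i p q = ∑ l, (α i l p * β i l q - α i l q * β i l p)) :
    ∑ π : Perm (Fin d × Fin 2), ((Perm.sign π : ℤ) : ℂ) * ∏ i, v i (π (i, 0)) (π (i, 1)) =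
      2 ^ d * ∑ f : Fin d → Fin k, (gam (fun i => α i (f i)) fun i => β i (f i)).det := by
  have h1 : ∀ π : Perm (Fin d × Fin 2), ∏ i, v i (π (i, 0)) (π (i, 1)) =
      ∑ f : Fin d → Fin k, ∏ i, (α i (f i) (π (i, 0)) * β i (f i) (π (i, 1)) -
        α i (f i) (π (i, 1)) * β i (f i) (π (i, 0))) := by
    intro π
    simp only [hv]
    rw [Finset.prod_univ_sum, Fintype.piFinset_univ]
  simp only [h1, Finset.mul_sum]
  rw [Finset.sum_comm]
  refine Finset.sum_congr rfl fun f _ => ?_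
  exact alt_dec (fun i => α i (f i)) fun i => β i (f i)

end Vale.Agent.P281.H638.HK
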